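import Mathlib

set_option autoImplicit false

namespace Crest.Agent.R74.E9

theorem coreB (l m S b τ : ℝ) (hl0 : 0 < l) (hm0 : 0 < m) (hlm : l + m < 1) (hS : 0 < S)
    (hbS : S ≤ b) (hτ0 : 0 ≤ τ) (hτ1 : τ < 1)
    (h1 : (b - τ * S) ^ 2 ≤ (S - τ * b) ^ 2 + (1 - τ ^ 2) * (m * b) ^ 2)
    (h3 : S ^ 2 ≤ l ^ 2 * ((S - τ * b) ^ 2 + (1 - τ ^ 2) * (m * b) ^ 2)) : False := by
  have hb0 : 0 < b := by linarith
  have hq : 0 < 1 - τ ^ 2 := by nlinarith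
  have h2 : (1 - m ^ 2) * b ^ 2 ≤ S ^ 2 := by
    have : (1 - τ ^ 2) * ((1 - m ^ 2) * b ^ 2) ≤ (1 - τ ^ 2) * S ^ 2 := by
      have e : (1 - τ ^ 2) * S ^ 2 - (1 - τ ^ 2) * ((1 - m ^ 2) * b ^ 2) =
        (S - τ * b) ^ 2 + (1 - τ ^ 2) * (m * b) ^ 2 - (b - τ * S) ^ 2 := by ring
      linarith
    exact le_of_mul_le_mul_left this hq
  have hm2 : 0 < 1 - m ^ 2 := by nlinarith
  have h4 : (1 - m ^ 2) * b ≤ S := by
    have h41 : S * S ≤ S * b := mul_le_mul_of_nonneg_left hbS hS.le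
    have : ((1 - m ^ 2) * b) * b ≤ S * b := by
      have e1 : ((1 - m ^ 2) * b) * b = (1 - m ^ 2) * b ^ 2 := by ring
      have e2 : S ^ 2 = S * S := by ring
      linarith
    exact le_of_mul_le_mul_right this hb0
  have h5 : (S - τ * b) ^ 2 + (1 - τ ^ 2) * (m * b) ^ 2 ≤ S ^ 2 + m ^ 2 * b ^ 2 := by
    have h50 : τ * ((1 - m ^ 2) * b) ≤ 1 * ((1 - m ^ 2) * b) :=
      mul_le_mul_of_nonneg_right hτ1.le (by positivity)
    have h51 : τ * ((1 - m ^ 2) * b) ≤ 2 * S := by linarith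
    have h52 : (τ * b) * (τ * ((1 - m ^ 2) * b)) ≤ (τ * b) * (2 * S) :=
      mul_le_mul_of_nonneg_left h51 (by positivity)
    have e : S ^ 2 + m ^ 2 * b ^ 2 - ((S - τ * b) ^ 2 + (1 - τ ^ 2) * (m * b) ^ 2) =
      (τ * b) * (2 * S) - (τ * b) * (τ * ((1 - m ^ 2) * b)) := by ring
    linarith
  have h6 : S ^ 2 ≤ l ^ 2 * (S ^ 2 + m ^ 2 * b ^ 2) :=
    h3.trans (mul_le_mul_of_nonneg_left h5 (by positivity))
  have h7 : (1 - m ^ 2) * (S ^ 2 + m ^ 2 * b ^ 2) ≤ S ^ 2 := by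
    have : m ^ 2 * ((1 - m ^ 2) * b ^ 2) ≤ m ^ 2 * S ^ 2 :=
      mul_le_mul_of_nonneg_left h2 (by positivity)
    have e : S ^ 2 - (1 - m ^ 2) * (S ^ 2 + m ^ 2 * b ^ 2) =
      m ^ 2 * S ^ 2 - m ^ 2 * ((1 - m ^ 2) * b ^ 2) := by ring
    linarith
  have h8 : (1 - m ^ 2) * S ^ 2 ≤ l ^ 2 * S ^ 2 := by
    have h81 : (1 - m ^ 2) * S ^ 2 ≤ (1 - m ^ 2) * (l ^ 2 * (S ^ 2 + m ^ 2 * b ^ 2)) :=
      mul_le_mul_of_nonneg_left h6 hm2.le
    have h82 : l ^ 2 * ((1 - m ^ 2) * (S ^ 2 + m ^ 2 * b ^ 2)) ≤ l ^ 2 * S ^ 2 :=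
      mul_le_mul_of_nonneg_left h7 (by positivity)
    have e : (1 - m ^ 2) * (l ^ 2 * (S ^ 2 + m ^ 2 * b ^ 2)) =
      l ^ 2 * ((1 - m ^ 2) * (S ^ 2 + m ^ 2 * b ^ 2)) := by ring
    linarith
  have h9 : 1 - m ^ 2 ≤ l ^ 2 := le_of_mul_le_mul_right h8 (by positivity)
  clear h1 h2 h3 h4 h5 h6 h7 h8
  nlinarith [mul_pos hl0 hm0]

theorem coreA0 (t τ a' l : ℝ) (ht0 : 0 < t) (ht1 : t < 1) (hτ0 : 0 ≤ τ) (hτ1 : τ < 1)
    (ha'0 : 0 < a') (hsl' : a' ≤ 1 + τ * t)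
    (h1 : 1 ≤ (t - τ * a') ^ 2 + (1 - τ ^ 2) * (l * a') ^ 2) :
    (1 - t) + τ * a' ≤ (1 + τ) * l ^ 2 * a' := by
  have hT : 0 < 1 - t := by linarith
  have h2 : (1 - τ) * (1 + t + τ * t) ≤ 1 + t - τ * a' := by
    have := mul_le_mul_of_nonneg_left hsl' hτ0
    have e : (1 - τ) * (1 + t + τ * t) = 1 + t - τ * (1 + τ * t) := by ring
    linarith
  have h3 : ((1 - t) + τ * a') * (1 + t + τ * t) ≤ (1 + τ) * (l * a') ^ 2 := by
    have h31 : ((1 - t) + τ * a') * (1 + t - τ * a') ≤ (1 - τ) * ((1 + τ) * (l * a') ^ 2) := by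
      have e1 : ((1 - t) + τ * a') * (1 + t - τ * a') = 1 - (t - τ * a') ^ 2 := by ring
      have e2 : (1 - τ) * ((1 + τ) * (l * a') ^ 2) = (1 - τ ^ 2) * (l * a') ^ 2 := by ring
      linarith
    have h32 : ((1 - t) + τ * a') * ((1 - τ) * (1 + t + τ * t)) ≤
        ((1 - t) + τ * a') * (1 + t - τ * a') :=
      mul_le_mul_of_nonneg_left h2 (by positivity)
    have h33 : (1 - τ) * (((1 - t) + τ * a') * (1 + t + τ * t)) ≤
        (1 - τ) * ((1 + τ) * (l * a') ^ 2) := by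
      have e : (1 - τ) * (((1 - t) + τ * a') * (1 + t + τ * t)) =
        ((1 - t) + τ * a') * ((1 - τ) * (1 + t + τ * t)) := by ring
      linarith
    exact le_of_mul_le_mul_left h33 (by linarith)
  have h4 : ((1 - t) + τ * a') * a' ≤ ((1 - t) + τ * a') * (1 + t + τ * t) :=
    mul_le_mul_of_nonneg_left (by linarith) (by positivity)
  have : ((1 - t) + τ * a') * a' ≤ ((1 + τ) * l ^ 2 * a') * a' := by
    have e : ((1 + τ) * l ^ 2 * a') * a' = (1 + τ) * (l * a') ^ 2 := by ring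
    linarith
  exact le_of_mul_le_mul_right this ha'0

theorem coreA1 (t τ a' l : ℝ) (ht0 : 0 < t) (ht1 : t < 1) (hτ0 : 0 ≤ τ) (hτ1 : τ < 1)
    (ha'0 : 0 < a') (hsl' : a' ≤ 1 + τ * t) (hl0 : 0 < l) (h7 : l < 1 - t)
    (h5 : (1 - t) + τ * a' ≤ (1 + τ) * l ^ 2 * a') : False := by
  have hT : 0 < 1 - t := by linarith
  have h8 : l ^ 2 < (1 - t) ^ 2 := pow_lt_pow_left₀ h7 hl0.le (by norm_num)
  have h9 : (1 - t) * a' ≤ 1 := by
    have : (1 - t) * a' ≤ (1 - t) * (1 + τ * t) := mul_le_mul_of_nonneg_left hsl' hT.le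
    have h' : (1 - t) * (1 + τ * t) ≤ 1 := by
      have h1 : τ * t ≤ 1 * t := mul_le_mul_of_nonneg_right hτ1.le ht0.le
      have h2 : 0 ≤ τ * t * t := by positivity
      have e : (1 - t) * (1 + τ * t) = 1 - t + τ * t - τ * t * t := by ring
      linarith
    linarith
  have h10 : ((1 + τ) * a') * l ^ 2 < ((1 + τ) * a') * (1 - t) ^ 2 :=
    mul_lt_mul_of_pos_left h8 (by positivity)
  have h11 : (1 - t) * ((1 - t) * a') ≤ (1 - t) * 1 := mul_le_mul_of_nonneg_left h9 hT.le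
  have h12 : (τ * a') * (1 - t) ^ 2 ≤ (τ * a') * 1 := by
    apply mul_le_mul_of_nonneg_left _ (by positivity)
    nlinarith
  have e1 : ((1 + τ) * a') * (1 - t) ^ 2 = (1 - t) * ((1 - t) * a') + (τ * a') * (1 - t) ^ 2 := by
    ring
  have e2 : (1 + τ) * l ^ 2 * a' = ((1 + τ) * a') * l ^ 2 := by ring
  linarith

theorem coreA2 (T τ a' l : ℝ) (hT : 0 < T) (hτ0 : 0 ≤ τ) (hτ1 : τ < 1)
    (ha'0 : 0 < a') (hl0 : 0 < l) (hl1 : l < 1) (h9 : l * T < (1 - l) * a')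
    (h5 : T + τ * a' ≤ (1 + τ) * l ^ 2 * a')
    (h62 : (a' + τ * T) ^ 2 ≤ (T + τ * a') ^ 2 + (1 - τ ^ 2) * (l * a') ^ 2) : False := by
  have hq : 0 < 1 - τ ^ 2 := by nlinarith
  have h6 : (1 - l ^ 2) * a' ^ 2 ≤ T ^ 2 := by
    have h63 : (1 - τ ^ 2) * ((1 - l ^ 2) * a' ^ 2) ≤ (1 - τ ^ 2) * T ^ 2 := by
      have e : (1 - τ ^ 2) * T ^ 2 - (1 - τ ^ 2) * ((1 - l ^ 2) * a' ^ 2) =
        (T + τ * a') ^ 2 + (1 - τ ^ 2) * (l * a') ^ 2 - (a' + τ * T) ^ 2 := by ring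
      linarith
    exact le_of_mul_le_mul_left h63 hq
  have hl2 : l ^ 2 ≤ 1 := by nlinarith
  have h7 : T ≤ l ^ 2 * a' := by
    have : (τ * a') * l ^ 2 ≤ (τ * a') * 1 := mul_le_mul_of_nonneg_left hl2 (by positivity)
    have e : (1 + τ) * l ^ 2 * a' = l ^ 2 * a' + (τ * a') * l ^ 2 := by ring
    linarith
  have h8 : 1 - l ^ 2 ≤ l ^ 4 := by
    have h81 : T ^ 2 ≤ (l ^ 2 * a') ^ 2 := pow_le_pow_left₀ hT.le h7 2
    have : (1 - l ^ 2) * a' ^ 2 ≤ l ^ 4 * a' ^ 2 := by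
      have e : (l ^ 2 * a') ^ 2 = l ^ 4 * a' ^ 2 := by ring
      linarith
    exact le_of_mul_le_mul_right this (by positivity)
  have h10 : (l * T) ^ 2 < ((1 - l) * a') ^ 2 :=
    pow_lt_pow_left₀ h9 (by positivity) (by norm_num)
  have h11 : l ^ 2 * ((1 - l ^ 2) * a' ^ 2) ≤ l ^ 2 * T ^ 2 :=
    mul_le_mul_of_nonneg_left h6 (by positivity)
  have h13 : l ^ 2 * (1 + l) < 1 - l := by
    have : (l ^ 2 * (1 + l)) * ((1 - l) * a' ^ 2) < (1 - l) * ((1 - l) * a' ^ 2) := by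
      have e1 : (l ^ 2 * (1 + l)) * ((1 - l) * a' ^ 2) = l ^ 2 * ((1 - l ^ 2) * a' ^ 2) := by ring
      have e2 : (1 - l) * ((1 - l) * a' ^ 2) = ((1 - l) * a') ^ 2 := by ring
      have e3 : (l * T) ^ 2 = l ^ 2 * T ^ 2 := by ring
      linarith
    have hp : 0 ≤ (1 - l) * a' ^ 2 := mul_nonneg (by linarith) (by positivity)
    exact lt_of_mul_lt_mul_right this hp
  clear h5 h62 h6 h7 h10 h11 h9
  have h14 : 1 / 2 ≤ l ^ 2 := by
    by_contra h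
    push Not at h
    have : l ^ 4 = l ^ 2 * l ^ 2 := by ring
    have h0 : 0 ≤ l ^ 2 := by positivity
    nlinarith
  have h15 : 1 / 2 ≤ l := by nlinarith
  nlinarith

/-- scalar end-game for `σ ≤ 0` -/
theorem core (s t ρ a b a' b' σ : ℝ) (hs1 : s < 1) (ht0 : 0 < t) (ht1 : t < 1)
    (hρ : 0 < ρ) (hσ : σ * ρ = s - t) (hσ1 : -1 < σ) (hσ0 : σ ≤ 0) (ha' : a' = a + ρ)
    (hb : b = b' + ρ) (haS : 1 - s ≤ a) (hbS : 1 - s ≤ b) (ha'T : 1 - t ≤ a') (hb'T : 1 - t ≤ b')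
    (hsl : a' + σ * t ≤ 1)
    (hpos : (a + b) ^ 2 ≤ (a + b) ^ 2 * (s + σ * a) ^ 2 + (1 - σ ^ 2) * (a * a') ^ 2 ∨
      ((a + b) ^ 2 * (b + σ * (1 - s)) ^ 2 ≤
          (a + b) ^ 2 * ((1 - s) + σ * b) ^ 2 + (1 - σ ^ 2) * (b * b') ^ 2 ∧
        (a + b) ^ 2 * ((1 - s) * (a + b)) ^ 2 ≤
          a ^ 2 * ((a + b) ^ 2 * ((1 - s) + σ * b) ^ 2 + (1 - σ ^ 2) * (b * b') ^ 2)))
    (hneg : t * a' ≤ (1 - t) * b' ∨
      (a + b) ^ 2 * (a' - σ * (1 - t)) ^ 2 ≤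
          (a + b) ^ 2 * ((1 - t) - σ * a') ^ 2 + (1 - σ ^ 2) * (a * a') ^ 2) : False := by
  have hS : 0 < 1 - s := by linarith
  have hT : 0 < 1 - t := by linarith
  have ha0 : 0 < a := by linarith
  have hb0 : 0 < b := by linarith
  have ha'0 : 0 < a' := by linarith
  have hb'0 : 0 < b' := by linarith
  have hd : 0 < a + b := by linarith
  obtain ⟨τ, rfl⟩ : ∃ τ, σ = -τ := ⟨-σ, by ring⟩
  have hτ0 : 0 ≤ τ := by linarith
  have hτ1 : τ < 1 := by linarith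
  obtain ⟨d, hd_def⟩ : ∃ d, d = a + b := ⟨_, rfl⟩
  rw [← hd_def] at hpos hneg hd
  have hl0 : 0 < a / d := by positivity
  have hm0 : 0 < b' / d := by positivity
  have hlm : a / d + b' / d < 1 := by
    rw [← add_div, div_lt_one hd]; linarith
  have hl : a = a / d * d := by field_simp
  have hm : b' = b' / d * d := by field_simp
  generalize a / d = l at hl0 hlm hl
  generalize b' / d = m at hm0 hlm hm
  have hd2 : 0 < d ^ 2 := by positivity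
  have ha'd : a' = (1 - m) * d := by rw [sub_mul, ← hm]; linarith
  rcases hpos with hA | ⟨hB1, hB2⟩
  · have e1 : s + -τ * a = t - τ * a' := by rw [ha']; linarith
    have e2 : (1 - (-τ) ^ 2) * (a * a') ^ 2 = d ^ 2 * ((1 - τ ^ 2) * (l * a') ^ 2) := by
      rw [hl]; ring
    have h1 : 1 ≤ (t - τ * a') ^ 2 + (1 - τ ^ 2) * (l * a') ^ 2 := by
      apply le_of_mul_le_mul_left _ hd2
      rw [e1, e2] at hA
      rw [mul_add]; linarith
    have hsl' : a' ≤ 1 + τ * t := by linarith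
    have h5 := coreA0 t τ a' l ht0 ht1 hτ0 hτ1 ha'0 hsl' h1
    rcases hneg with hN | hN
    · have h6 : t ≤ m := by
        have : t * d ≤ m * d := by
          rw [← hm]
          have e : d = a' + b' := by linarith
          rw [e]; linarith
        exact le_of_mul_le_mul_right this hd
      exact coreA1 t τ a' l ht0 ht1 hτ0 hτ1 ha'0 hsl' hl0 (by linarith) h5
    · have h9 : l * (1 - t) < (1 - l) * a' := by
        have h91 : (1 - t) < (1 - l) * d := by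
          have : m * d < (1 - l) * d := mul_lt_mul_of_pos_right (by linarith) hd
          linarith
        have h92 : l * d < a' := by linarith
        have h93 : l * (1 - t) < l * ((1 - l) * d) := mul_lt_mul_of_pos_left h91 hl0
        have h94 : (1 - l) * (l * d) < (1 - l) * a' := mul_lt_mul_of_pos_left h92 (by linarith)
        have e : l * ((1 - l) * d) = (1 - l) * (l * d) := by ring
        linarith
      refine coreA2 (1 - t) τ a' l hT hτ0 hτ1 ha'0 hl0 (by linarith) h9 h5 ?_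
      apply le_of_mul_le_mul_left _ hd2
      rw [e2] at hN
      have e3 : a' - -τ * (1 - t) = a' + τ * (1 - t) := by ring
      have e4 : (1 - t) - -τ * a' = (1 - t) + τ * a' := by ring
      rw [e3, e4] at hN
      rw [mul_add]; linarith
  · have e2 : (1 - (-τ) ^ 2) * (b * b') ^ 2 = d ^ 2 * ((1 - τ ^ 2) * (m * b) ^ 2) := by
      rw [hm]; ring
    have e3 : b + -τ * (1 - s) = b - τ * (1 - s) := by ring
    have e4 : (1 - s) + -τ * b = (1 - s) - τ * b := by ring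
    rw [e2, e4] at hB1 hB2
    rw [e3] at hB1
    refine coreB l m (1 - s) b τ hl0 hm0 hlm hS hbS hτ0 hτ1 ?_ ?_
    · apply le_of_mul_le_mul_left _ hd2
      rw [mul_add]; linarith
    · apply le_of_mul_le_mul_left _ (show 0 < d ^ 2 * d ^ 2 by positivity)
      have e5 : a ^ 2 = d ^ 2 * l ^ 2 := by rw [hl]; ring
      rw [e5] at hB2
      have e6 : d ^ 2 * ((1 - s) * d) ^ 2 = d ^ 2 * d ^ 2 * (1 - s) ^ 2 := by ring
      have e7 : d ^ 2 * l ^ 2 * (d ^ 2 * (1 - s - τ * b) ^ 2 + d ^ 2 * ((1 - τ ^ 2) * (m * b) ^ 2)) =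
        d ^ 2 * d ^ 2 * (l ^ 2 * ((1 - s - τ * b) ^ 2 + (1 - τ ^ 2) * (m * b) ^ 2)) := by ring
      linarith

end Crest.Agent.R74.E9
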