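import Mathlib

/-! Row 74: the scalar end-game of the maximum-principle proof. -/

namespace Crest.Agent.R74

open Set

theorem eg_corner {ρ d w m J E Δ q y : ℝ} (hρ : 0 < ρ) (hd : 0 < d) (hw : w = m * d)
    (hw0 : 0 < w) (hJ : 0 ≤ J)
    (h1 : ρ * d * J ≤ w * E) (h2 : E ^ 2 ≤ Δ ^ 2 + ρ ^ 2 * q) (h3 : w * Δ = ρ * d * y) :
    J ^ 2 ≤ y ^ 2 + q * m ^ 2 := by
  have hK : 0 < ρ * d := mul_pos hρ hd
  have h4 : (ρ * d * J) ^ 2 ≤ (w * E) ^ 2 :=
    pow_le_pow_left₀ (mul_nonneg hK.le hJ) h1 2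
  have h5 : (w * E) ^ 2 ≤ w ^ 2 * (Δ ^ 2 + ρ ^ 2 * q) := by
    rw [mul_pow]; exact mul_le_mul_of_nonneg_left h2 (sq_nonneg w)
  have h6 : w ^ 2 * (Δ ^ 2 + ρ ^ 2 * q) = (ρ * d) ^ 2 * (y ^ 2 + q * m ^ 2) := by
    have : w ^ 2 * (Δ ^ 2 + ρ ^ 2 * q) = (w * Δ) ^ 2 + w ^ 2 * ρ ^ 2 * q := by ring
    rw [this, h3, hw]; ring
  have h7 : (ρ * d) ^ 2 * J ^ 2 ≤ (ρ * d) ^ 2 * (y ^ 2 + q * m ^ 2) := by
    have : (ρ * d) ^ 2 * J ^ 2 = (ρ * d * J) ^ 2 := by ring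
    linarith
  exact le_of_mul_le_mul_left h7 (pow_pos hK 2)

theorem eg_c11 {τ x l m : ℝ} (hτ0 : 0 ≤ τ) (hτ1 : τ < 1) (hx0 : 0 < x) (hx1 : x ≤ 1)
    (hl : 0 < l) (hm : 0 < m) (hlm : l + m < 1)
    (h1 : (1 - τ * x) ^ 2 ≤ (x - τ) ^ 2 + (1 - τ ^ 2) * m ^ 2)
    (h2 : x ^ 2 ≤ l ^ 2 * ((x - τ) ^ 2 + (1 - τ ^ 2) * m ^ 2)) : False := by
  have hq : 0 < 1 - τ ^ 2 := by nlinarith
  have h3 : 1 - m ^ 2 ≤ x ^ 2 := by
    have : (1 - τ ^ 2) * (1 - m ^ 2) ≤ (1 - τ ^ 2) * x ^ 2 := by nlinarith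
    exact le_of_mul_le_mul_left this hq
  have hm1 : 0 < 1 - m ^ 2 := by nlinarith
  have hl1 : 0 < 1 - l ^ 2 := by nlinarith
  have h4 : 1 - m ^ 2 ≤ x := by nlinarith
  have h5 : (x - τ) ^ 2 + (1 - τ ^ 2) * m ^ 2 ≤ x ^ 2 + m ^ 2 := by
    have h51 : τ * (1 - m ^ 2) ≤ 2 * x := by nlinarith
    have h52 : τ * (τ * (1 - m ^ 2)) ≤ τ * (2 * x) := mul_le_mul_of_nonneg_left h51 hτ0
    nlinarith
  have h6 : x ^ 2 ≤ l ^ 2 * (x ^ 2 + m ^ 2) :=
    h2.trans (mul_le_mul_of_nonneg_left h5 (sq_nonneg l))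
  have h7 : (1 - m ^ 2) * (1 - l ^ 2) ≤ x ^ 2 * (1 - l ^ 2) :=
    mul_le_mul_of_nonneg_right h3 hl1.le
  have h8 : 1 ≤ l ^ 2 + m ^ 2 := by nlinarith
  nlinarith [mul_pos hl hm]

theorem eg_star {τ t a' l : ℝ} (hτ0 : 0 ≤ τ) (hτ1 : τ < 1) (ht1 : t < 1)
    (ha' : 0 < a') (hup : a' ≤ 1 + τ * t)
    (h : 1 ≤ (t - τ * a') ^ 2 + (1 - τ ^ 2) * l ^ 2 * a' ^ 2) :
    (1 - t + τ * a') * (1 + t + τ * t) ≤ (1 + τ) * l ^ 2 * a' ^ 2 := by
  have h1 : (1 - τ) * (1 + t + τ * t) ≤ 1 + t - τ * a' := by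
    have := mul_le_mul_of_nonneg_left hup hτ0
    nlinarith
  have h2 : 0 ≤ 1 - t + τ * a' := by nlinarith [mul_nonneg hτ0 ha'.le]
  have h3 : (1 - t + τ * a') * ((1 - τ) * (1 + t + τ * t)) ≤
      (1 - t + τ * a') * (1 + t - τ * a') := mul_le_mul_of_nonneg_left h1 h2
  have h4 : (1 - τ) * ((1 - t + τ * a') * (1 + t + τ * t)) ≤
      (1 - τ) * ((1 + τ) * l ^ 2 * a' ^ 2) := by nlinarith
  exact le_of_mul_le_mul_left h4 (by linarith)

theorem eg_A {τ t a' l : ℝ} (hτ0 : 0 ≤ τ) (hτ1 : τ < 1) (ht0 : 0 < t) (ht1 : t < 1)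
    (hT : 1 - t ≤ a') (hup : a' ≤ 1 + τ * t) (hl : 0 < l) (hlT : l < 1 - t)
    (h : (1 - t + τ * a') * (1 + t + τ * t) ≤ (1 + τ) * l ^ 2 * a' ^ 2) : False := by
  have ha' : 0 < a' := by linarith
  have hτt : 0 ≤ τ * t := mul_nonneg hτ0 ht0.le
  have hτt' : τ * t ≤ t := by nlinarith
  have h1 : (1 - t) * a' ≤ 1 := by nlinarith
  have h2 : l * a' < (1 - t) * a' := mul_lt_mul_of_pos_right hlT ha'
  have h2' : 0 < l * a' := mul_pos hl ha'
  have h3 : (l * a') ^ 2 < (1 - t) * a' := by nlinarith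
  have h4 : (1 - t) * a' ≤ (1 - t) * (1 + t + τ * t) :=
    mul_le_mul_of_nonneg_left (by linarith) (by linarith)
  have h5 : (1 + τ) * (1 - t) ≤ 1 - t + τ * a' := by nlinarith [mul_le_mul_of_nonneg_left hT hτ0]
  have h6 : (1 + τ) * (1 - t) * (1 + t + τ * t) ≤ (1 - t + τ * a') * (1 + t + τ * t) :=
    mul_le_mul_of_nonneg_right h5 (by linarith)
  have h7 : (1 + τ) * (l * a') ^ 2 < (1 + τ) * ((1 - t) * (1 + t + τ * t)) :=
    mul_lt_mul_of_pos_left (lt_of_lt_of_le h3 h4) (by linarith)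
  nlinarith

theorem eg_B {τ t a' l : ℝ} (hτ0 : 0 ≤ τ) (ht0 : 0 < t) (ht1 : t < 1)
    (ha' : 0 < a') (hup : a' ≤ 1 + τ * t) (hl : 0 < l) (hl1 : l < 1)
    (h : (1 - t + τ * a') * (1 + t + τ * t) ≤ (1 + τ) * l ^ 2 * a' ^ 2)
    (h2 : (1 - l ^ 2) * a' ^ 2 ≤ (1 - t) ^ 2) (h3 : l * (1 - t) < (1 - l) * a') : False := by
  have hτa : 0 ≤ τ * a' := mul_nonneg hτ0 ha'.le
  have h4 : (1 - t + τ * a') * a' ≤ (1 - t + τ * a') * (1 + t + τ * t) :=
    mul_le_mul_of_nonneg_left (by linarith) (by linarith)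
  have h5 : 1 - t + τ * a' ≤ (1 + τ) * l ^ 2 * a' := by
    have : (1 - t + τ * a') * a' ≤ ((1 + τ) * l ^ 2 * a') * a' := by nlinarith
    exact le_of_mul_le_mul_right this ha'
  have hl2 : l ^ 2 < 1 := by nlinarith
  have h6 : 1 - t ≤ l ^ 2 * a' := by nlinarith [mul_le_mul_of_nonneg_left hl2.le hτa]
  have h7 : (1 - t) ^ 2 ≤ (l ^ 2 * a') ^ 2 := pow_le_pow_left₀ (by linarith) h6 2
  have ha2 : 0 < a' ^ 2 := pow_pos ha' 2
  have h8 : 1 - l ^ 2 ≤ l ^ 4 := by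
    have : (1 - l ^ 2) * a' ^ 2 ≤ l ^ 4 * a' ^ 2 := by nlinarith
    exact le_of_mul_le_mul_right this ha2
  have h9 : (l * (1 - t)) ^ 2 < ((1 - l) * a') ^ 2 :=
    pow_lt_pow_left₀ h3 (mul_nonneg hl.le (by linarith)) two_ne_zero
  have h10 : l ^ 2 * (1 - l ^ 2) < (1 - l) ^ 2 := by
    have h101 : l ^ 2 * ((1 - l ^ 2) * a' ^ 2) ≤ l ^ 2 * (1 - t) ^ 2 :=
      mul_le_mul_of_nonneg_left h2 (sq_nonneg l)
    have : (l ^ 2 * (1 - l ^ 2)) * a' ^ 2 < (1 - l) ^ 2 * a' ^ 2 := by nlinarith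
    exact lt_of_mul_lt_mul_right this ha2.le
  have h11 : l ^ 2 * (1 + l) < 1 - l := by
    have : (l ^ 2 * (1 + l)) * (1 - l) < (1 - l) * (1 - l) := by nlinarith
    exact lt_of_mul_lt_mul_right this (by linarith)
  have h12 : 1 / 2 ≤ l ^ 2 := by nlinarith [sq_nonneg (l ^ 2)]
  have h13 : 1 / 2 < l := by nlinarith
  nlinarith

/-- End-game when `s ≤ t`. -/
theorem endgame_neg (s t ρ σ a b : ℝ) (η : ℝ → ℝ → ℝ)
    (hs0 : 0 < s) (hs1 : s < 1) (ht0 : 0 < t) (ht1 : t < 1) (hρ : 0 < ρ)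
    (hσ : σ * ρ = s - t) (hσ1 : -1 < σ) (hσ0 : σ ≤ 0)
    (hη : ∀ u ∈ Icc (0:ℝ) 1, ∀ v ∈ Icc (0:ℝ) 1, η u v ^ 2 ≤ (u - v) ^ 2 + (ρ ^ 2 - (s - t) ^ 2))
    (h0l : ∀ v ∈ Icc (0:ℝ) 1, η 0 v ≤ v) (h0r : ∀ u ∈ Icc (0:ℝ) 1, η u 0 ≤ u)
    (h1l : ∀ v ∈ Icc (0:ℝ) 1, η 1 v ≤ 1 - v) (h1r : ∀ u ∈ Icc (0:ℝ) 1, η u 1 ≤ 1 - u)
    (ha : 1 - s ≤ a) (hb : 1 - s ≤ b) (ha' : 1 - t ≤ a + ρ) (hb' : 1 - t ≤ b - ρ)
    (hup : a + ρ + σ * t ≤ 1)
    (hI : ∀ x x' : ℝ, 0 ≤ x → 0 ≤ x' → 0 ≤ s - a * x → 0 ≤ t - (a + ρ) * x' →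
      s + b * x ≤ 1 → t + (b - ρ) * x' ≤ 1 →
      ρ * (a + b) * (1 + σ * x) ≤ (b - ρ) * η (s - a * x) (t - (a + ρ) * x') +
          (a + ρ) * η (s + b * x) (t + (b - ρ) * x') ∧
      ρ * (a + b) * (x + (1 - s) / a) ≤ (b - ρ) * η (s - a * x) (t - (a + ρ) * x') +
          (a + ρ) * η (s + b * x) (t + (b - ρ) * x'))
    (hII : ∀ x x' : ℝ, 0 ≤ x → 0 ≤ x' → s + a * x ≤ 1 → t + (a + ρ) * x' ≤ 1 →
      0 ≤ s - b * x → 0 ≤ t - (b - ρ) * x' →
      ρ * (a + b) * (1 - σ * x') ≤ b * η (s + a * x) (t + (a + ρ) * x') +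
          a * η (s - b * x) (t - (b - ρ) * x')) : False := by
  have ha0 : 0 < a := by linarith
  have hb0 : 0 < b := by linarith
  obtain ⟨a', ha'e⟩ : ∃ a', a' = a + ρ := ⟨_, rfl⟩
  obtain ⟨b', hb'e⟩ : ∃ b', b' = b - ρ := ⟨_, rfl⟩
  obtain ⟨d, hde⟩ : ∃ d, d = a + b := ⟨_, rfl⟩
  obtain ⟨τ, hτe⟩ : ∃ τ, σ = -τ := ⟨-σ, by ring⟩
  rw [← ha'e, ← hb'e, ← hde] at hI hII
  rw [← ha'e] at ha' hup
  rw [← hb'e] at hb'
  subst hτe
  have hτ0 : 0 ≤ τ := by linarith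
  have hτ1 : τ < 1 := by linarith
  have ha'0 : 0 < a' := by linarith
  have hb'0 : 0 < b' := by linarith
  have hd : 0 < d := by linarith
  have hK : 0 < ρ * d := mul_pos hρ hd
  have hst : s = t - τ * ρ := by linarith
  have hup' : a' ≤ 1 + τ * t := by linarith
  have hcq : ρ ^ 2 - (s - t) ^ 2 = ρ ^ 2 * (1 - τ ^ 2) := by rw [← hσ]; ring
  rw [hcq] at hη
  obtain ⟨l, hle⟩ : ∃ l, a = l * d := ⟨a / d, by field_simp⟩
  obtain ⟨m, hme⟩ : ∃ m, b' = m * d := ⟨b' / d, by field_simp⟩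
  have hl : 0 < l := by
    by_contra h; push Not at h; nlinarith [mul_nonneg (neg_nonneg.2 h) hd.le]
  have hm : 0 < m := by
    by_contra h; push Not at h; nlinarith [mul_nonneg (neg_nonneg.2 h) hd.le]
  have hlm : l + m < 1 := by
    by_contra h; push Not at h; nlinarith [mul_nonneg (sub_nonneg.2 h) hd.le]
  -- the four moves
  obtain ⟨x0, hx0⟩ : ∃ x, a * x = s := ⟨s / a, by field_simp⟩
  obtain ⟨x1, hx1⟩ : ∃ x, b * x = 1 - s := ⟨(1 - s) / b, by field_simp⟩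
  obtain ⟨y0, hy0⟩ : ∃ y, a' * y = t := ⟨t / a', by field_simp⟩
  obtain ⟨y1, hy1⟩ : ∃ y, b' * y = 1 - t := ⟨(1 - t) / b', by field_simp⟩
  have hx0p : 0 < x0 := by
    by_contra h; push Not at h; nlinarith [mul_nonneg ha0.le (neg_nonneg.2 h)]
  have hx1p : 0 < x1 := by
    by_contra h; push Not at h; nlinarith [mul_nonneg hb0.le (neg_nonneg.2 h)]
  have hy0p : 0 < y0 := by
    by_contra h; push Not at h; nlinarith [mul_nonneg ha'0.le (neg_nonneg.2 h)]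
  have hy1p : 0 < y1 := by
    by_contra h; push Not at h; nlinarith [mul_nonneg hb'0.le (neg_nonneg.2 h)]
  -- key identity in the positive direction
  have idI : ∀ x x' : ℝ, b' * ((s - a * x) - (t - a' * x')) + a' * ((s + b * x) - (t + b' * x'))
      = ρ * d * (x - τ) := by
    intro x x'; rw [hst, ha'e, hb'e, hde]; ring
  have idII : ∀ x x' : ℝ, b * ((s + a * x) - (t + a' * x')) + a * ((s - b * x) - (t - b' * x'))
      = ρ * d * (-τ - x') := by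
    intro x x'; rw [hst, ha'e, hb'e, hde]; ring
  have hstar : (1 - t + τ * a') * (1 + t + τ * t) ≤ (1 + τ) * l ^ 2 * a' ^ 2 := by
    rcases le_total x0 x1 with hx | hx
    · have e1 : s - a * x0 = 0 := by linarith
      have i2 : s + b * x0 ≤ 1 := by nlinarith [mul_le_mul_of_nonneg_left hx hb0.le]
      have i2' : 0 ≤ s + b * x0 := by nlinarith [mul_pos hb0 hx0p]
      rcases le_total y0 y1 with hy | hy
      · -- corner (0,0)
        have e3 : t - a' * y0 = 0 := by linarith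
        have i4 : t + b' * y0 ≤ 1 := by nlinarith [mul_le_mul_of_nonneg_left hy hb'0.le]
        have i4' : 0 ≤ t + b' * y0 := by nlinarith [mul_pos hb'0 hy0p]
        obtain ⟨-, h⟩ := hI x0 y0 hx0p.le hy0p.le e1.ge e3.ge i2 i4
        have hid := idI x0 y0
        rw [e1, e3] at h hid
        have h00 : η 0 0 ≤ 0 := h0l 0 ⟨le_rfl, zero_le_one⟩
        have hJ : x0 + (1 - s) / a = 1 / a := by rw [← hx0]; field_simp; ring
        rw [hJ] at h
        have h' : ρ * d * (1 / a) ≤ a' * η (s + b * x0) (t + b' * y0) := by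
          nlinarith [mul_nonneg hb'0.le (neg_nonneg.2 h00)]
        have hc := eg_corner (m := a' / d) (y := x0 - τ) hρ hd (by field_simp) ha'0
          (by positivity) h' (hη _ ⟨i2', i2⟩ _ ⟨i4', i4⟩) (by linarith)
        apply eg_star hτ0 hτ1 ht1 ha'0 hup'
        have hm1 : a ^ 2 * (1 / a) ^ 2 ≤ a ^ 2 * ((x0 - τ) ^ 2 + (1 - τ ^ 2) * (a' / d) ^ 2) :=
          mul_le_mul_of_nonneg_left hc (sq_nonneg a)
        have e5 : a ^ 2 * (1 / a) ^ 2 = 1 := by field_simp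
        have e6 : a ^ 2 * ((x0 - τ) ^ 2 + (1 - τ ^ 2) * (a' / d) ^ 2) =
            (t - τ * a') ^ 2 + (1 - τ ^ 2) * l ^ 2 * a' ^ 2 := by
          have e7 : t - τ * a' = a * (x0 - τ) := by rw [mul_sub, hx0, hst, ha'e]; ring
          have e8 : a * (a' / d) = l * a' := by rw [hle]; field_simp
          rw [e7]
          calc a ^ 2 * ((x0 - τ) ^ 2 + (1 - τ ^ 2) * (a' / d) ^ 2)
              = (a * (x0 - τ)) ^ 2 + (1 - τ ^ 2) * (a * (a' / d)) ^ 2 := by ring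
            _ = _ := by rw [e8]; ring
        linarith
      · -- mixed 01
        exfalso
        have e4 : t + b' * y1 = 1 := by linarith
        have i3 : 0 ≤ t - a' * y1 := by nlinarith [mul_le_mul_of_nonneg_left hy ha'0.le]
        have i3' : t - a' * y1 ≤ 1 := by nlinarith [mul_pos ha'0 hy1p]
        obtain ⟨h, -⟩ := hI x0 y1 hx0p.le hy1p.le e1.ge i3 i2 e4.le
        have hid := idI x0 y1
        rw [e1, e4] at h hid
        have k1 := mul_le_mul_of_nonneg_left (h0l _ ⟨i3, i3'⟩) hb'0.le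
        have k2 := mul_le_mul_of_nonneg_left (h1r _ ⟨i2', i2⟩) ha'0.le
        have k3 : ρ * d * (1 + -τ * x0) ≤ ρ * d * (τ - x0) := by linarith
        have k4 := le_of_mul_le_mul_left k3 hK
        nlinarith
    · exfalso
      have e2 : s + b * x1 = 1 := by linarith
      have i1 : 0 ≤ s - a * x1 := by nlinarith [mul_le_mul_of_nonneg_left hx ha0.le]
      have i1' : s - a * x1 ≤ 1 := by nlinarith [mul_pos ha0 hx1p]
      have hx11 : x1 ≤ 1 := by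
        by_contra h; push Not at h; nlinarith [mul_pos hb0 (sub_pos.2 h)]
      rcases le_total y0 y1 with hy | hy
      · -- mixed 10
        have e3 : t - a' * y0 = 0 := by linarith
        have i4 : t + b' * y0 ≤ 1 := by nlinarith [mul_le_mul_of_nonneg_left hy hb'0.le]
        have i4' : 0 ≤ t + b' * y0 := by nlinarith [mul_pos hb'0 hy0p]
        obtain ⟨h, -⟩ := hI x1 y0 hx1p.le hy0p.le i1 e3.ge e2.le i4
        have hid := idI x1 y0
        rw [e2, e3] at h hid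
        have k1 := mul_le_mul_of_nonneg_left (h0r _ ⟨i1, i1'⟩) hb'0.le
        have k2 := mul_le_mul_of_nonneg_left (h1l _ ⟨i4', i4⟩) ha'0.le
        have k3 : ρ * d * (1 + -τ * x1) ≤ ρ * d * (x1 - τ) := by linarith
        have k4 := le_of_mul_le_mul_left k3 hK
        have k5 : 1 ≤ x1 := by
          by_contra h; push Not at h; nlinarith [mul_pos (sub_pos.2 h) (by linarith : 0 < 1 + τ)]
        have k6 : b ≤ 1 - s := by nlinarith [mul_le_mul_of_nonneg_left k5 hb0.le]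
        nlinarith [mul_pos hρ (sub_pos.2 hτ1)]
      · -- corner (1,1)
        have e4 : t + b' * y1 = 1 := by linarith
        have i3 : 0 ≤ t - a' * y1 := by nlinarith [mul_le_mul_of_nonneg_left hy ha'0.le]
        have i3' : t - a' * y1 ≤ 1 := by nlinarith [mul_pos ha'0 hy1p]
        obtain ⟨h, h2⟩ := hI x1 y1 hx1p.le hy1p.le i1 i3 e2.le e4.le
        have hid := idI x1 y1
        rw [e2, e4] at h h2 hid
        have h11 : η 1 1 ≤ 0 := by simpa using h1l 1 ⟨zero_le_one, le_rfl⟩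
        have hJ : x1 + (1 - s) / a = x1 / l := by
          rw [← hx1]
          have : b = d - l * d := by linarith
          rw [this, hle]; field_simp; ring
        rw [hJ] at h2
        have k0 := mul_nonneg ha'0.le (neg_nonneg.2 h11)
        have h' : ρ * d * (1 - τ * x1) ≤ b' * η (s - a * x1) (t - a' * y1) := by linarith
        have h2' : ρ * d * (x1 / l) ≤ b' * η (s - a * x1) (t - a' * y1) := by linarith
        have hE := hη _ ⟨i1, i1'⟩ _ ⟨i3, i3'⟩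
        have hc := eg_corner (m := m) (y := x1 - τ) hρ hd hme hb'0
          (by nlinarith [mul_le_mul_of_nonneg_left hx11 hτ0]) h' hE (by linarith)
        have hc2 := eg_corner (m := m) (y := x1 - τ) hρ hd hme hb'0
          (by positivity) h2' hE (by linarith)
        refine eg_c11 hτ0 hτ1 hx1p hx11 hl hm hlm hc ?_
        have := mul_le_mul_of_nonneg_left hc2 (sq_nonneg l)
        have e5 : l ^ 2 * (x1 / l) ^ 2 = x1 ^ 2 := by field_simp
        linarith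
  -- negative direction
  rcases le_or_gt (t * d) b' with htd | htd
  · have : t ≤ m := by
      by_contra h; push Not at h; nlinarith [mul_pos (sub_pos.2 h) hd]
    exact eg_A hτ0 hτ1 ht0 ht1 ha' hup' hl (by linarith) hstar
  obtain ⟨z, hz⟩ : ∃ y, a' * y = 1 - t := ⟨(1 - t) / a', by field_simp⟩
  have hzp : 0 < z := by
    by_contra h; push Not at h; nlinarith [mul_nonneg ha'0.le (neg_nonneg.2 h)]
  have hd' : d = a' + b' := by linarith
  have e3 : t + a' * z = 1 := by linarith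
  have i4 : 0 ≤ t - b' * z := by
    have : 0 ≤ a' * (t - b' * z) := by
      have : a' * (t - b' * z) = t * d - b' := by
        rw [hd']; linear_combination (-b') * hz
      linarith
    exact nonneg_of_mul_nonneg_right this ha'0 |> fun h => h
  have i4' : t - b' * z ≤ 1 := by nlinarith [mul_pos hb'0 hzp]
  rcases le_total (s * d) b with hsd | hsd
  · obtain ⟨w, hw⟩ : ∃ x, b * x = s := ⟨s / b, by field_simp⟩
    have hwp : 0 < w := by
      by_contra h; push Not at h; nlinarith [mul_nonneg hb0.le (neg_nonneg.2 h)]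
    have e2 : s - b * w = 0 := by linarith
    have i1 : s + a * w ≤ 1 := by
      have : b * (s + a * w) ≤ b * 1 := by
        have : b * (s + a * w) = s * d := by rw [hde]; linear_combination a * hw
        linarith
      exact le_of_mul_le_mul_left this hb0
    have i1' : 0 ≤ s + a * w := by nlinarith [mul_pos ha0 hwp]
    have h := hII w z hwp.le hzp.le i1 e3.le e2.ge i4
    have hid := idII w z
    rw [e2, e3] at h hid
    have k1 := mul_le_mul_of_nonneg_left (h1r _ ⟨i1', i1⟩) hb0.le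
    have k2 := mul_le_mul_of_nonneg_left (h0l _ ⟨i4, i4'⟩) ha0.le
    have k3 : ρ * d * (1 - -τ * z) ≤ ρ * d * (τ + z) := by linarith
    have k4 := le_of_mul_le_mul_left k3 hK
    have k5 : 1 ≤ z := by
      by_contra h; push Not at h; nlinarith [mul_pos (sub_pos.2 h) (sub_pos.2 hτ1)]
    have k6 : a' ≤ 1 - t := by nlinarith [mul_le_mul_of_nonneg_left k5 ha'0.le]
    nlinarith [mul_nonneg hτ0 hρ.le]
  · obtain ⟨w, hw⟩ : ∃ x, a * x = 1 - s := ⟨(1 - s) / a, by field_simp⟩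
    have hwp : 0 < w := by
      by_contra h; push Not at h; nlinarith [mul_nonneg ha0.le (neg_nonneg.2 h)]
    have e1 : s + a * w = 1 := by linarith
    have i2 : 0 ≤ s - b * w := by
      have : a * 0 ≤ a * (s - b * w) := by
        have : a * (s - b * w) = s * d - b := by rw [hde]; linear_combination (-b) * hw
        linarith
      exact le_of_mul_le_mul_left this ha0
    have i2' : s - b * w ≤ 1 := by nlinarith [mul_pos hb0 hwp]
    have h := hII w z hwp.le hzp.le e1.le e3.le i2 i4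
    have hid := idII w z
    rw [e1, e3] at h hid
    have h11 : η 1 1 ≤ 0 := by simpa using h1l 1 ⟨zero_le_one, le_rfl⟩
    have k0 := mul_nonneg hb0.le (neg_nonneg.2 h11)
    have h' : ρ * d * (1 + τ * z) ≤ a * η (s - b * w) (t - b' * z) := by linarith
    have hc := eg_corner (m := l) (y := -τ - z) hρ hd hle ha0
      (by positivity) h' (hη _ ⟨i2, i2'⟩ _ ⟨i4, i4'⟩) (by linarith)
    have hq : 0 < 1 - τ ^ 2 := by nlinarith
    have k1 : 1 - l ^ 2 ≤ z ^ 2 := by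
      have : (1 - τ ^ 2) * (1 - l ^ 2) ≤ (1 - τ ^ 2) * z ^ 2 := by nlinarith
      exact le_of_mul_le_mul_left this hq
    have k2 : (1 - l ^ 2) * a' ^ 2 ≤ (1 - t) ^ 2 := by
      rw [← hz]
      have := mul_le_mul_of_nonneg_right k1 (sq_nonneg a')
      nlinarith
    have k3 : l * (1 - t) < (1 - l) * a' := by
      have j1 : l * (1 - t) ≤ l * (m * d) := mul_le_mul_of_nonneg_left (by linarith) hl.le
      have j2 : m * a < (1 - l) * a := mul_lt_mul_of_pos_right (by linarith) ha0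
      have j3 : (1 - l) * a ≤ (1 - l) * a' := mul_le_mul_of_nonneg_left (by linarith) (by linarith)
      have j4 : l * (m * d) = m * a := by rw [hle]; ring
      linarith
    exact eg_B hτ0 ht0 ht1 ha'0 hup' hl (by linarith) hstar k2 k3

/-- The scalar end-game.  `a' = a + ρ`, `b' = b - ρ`, `d = a + b`, `σ ρ = s - t`. -/
theorem endgame (s t ρ σ a b : ℝ) (η : ℝ → ℝ → ℝ)
    (hs0 : 0 < s) (hs1 : s < 1) (ht0 : 0 < t) (ht1 : t < 1) (hρ : 0 < ρ)
    (hσ : σ * ρ = s - t) (hσ1 : -1 < σ) (hσ2 : σ < 1)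
    (hη : ∀ u ∈ Icc (0:ℝ) 1, ∀ v ∈ Icc (0:ℝ) 1, η u v ^ 2 ≤ (u - v) ^ 2 + (ρ ^ 2 - (s - t) ^ 2))
    (h0l : ∀ v ∈ Icc (0:ℝ) 1, η 0 v ≤ v) (h0r : ∀ u ∈ Icc (0:ℝ) 1, η u 0 ≤ u)
    (h1l : ∀ v ∈ Icc (0:ℝ) 1, η 1 v ≤ 1 - v) (h1r : ∀ u ∈ Icc (0:ℝ) 1, η u 1 ≤ 1 - u)
    (ha : 1 - s ≤ a) (hb : 1 - s ≤ b) (ha' : 1 - t ≤ a + ρ) (hb' : 1 - t ≤ b - ρ)
    (hup : a + ρ + σ * t ≤ 1) (hup' : b - σ * s ≤ 1)
    (hI : ∀ x x' : ℝ, 0 ≤ x → 0 ≤ x' → 0 ≤ s - a * x → 0 ≤ t - (a + ρ) * x' →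
      s + b * x ≤ 1 → t + (b - ρ) * x' ≤ 1 →
      ρ * (a + b) * (1 + σ * x) ≤ (b - ρ) * η (s - a * x) (t - (a + ρ) * x') +
          (a + ρ) * η (s + b * x) (t + (b - ρ) * x') ∧
      ρ * (a + b) * (x + (1 - s) / a) ≤ (b - ρ) * η (s - a * x) (t - (a + ρ) * x') +
          (a + ρ) * η (s + b * x) (t + (b - ρ) * x'))
    (hII : ∀ x x' : ℝ, 0 ≤ x → 0 ≤ x' → s + a * x ≤ 1 → t + (a + ρ) * x' ≤ 1 →
      0 ≤ s - b * x → 0 ≤ t - (b - ρ) * x' →
      ρ * (a + b) * (1 - σ * x') ≤ b * η (s + a * x) (t + (a + ρ) * x') +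
          a * η (s - b * x) (t - (b - ρ) * x') ∧
      ρ * (a + b) * (x' + (1 - t) / (b - ρ)) ≤ b * η (s + a * x) (t + (a + ρ) * x') +
          a * η (s - b * x) (t - (b - ρ) * x')) : False := by
  rcases le_total σ 0 with h | h
  · exact endgame_neg s t ρ σ a b η hs0 hs1 ht0 ht1 hρ hσ hσ1 h hη h0l h0r h1l h1r ha hb ha' hb'
      hup hI (fun x x' h1 h2 h3 h4 h5 h6 => (hII x x' h1 h2 h3 h4 h5 h6).1)
  · have e1 : b - ρ + ρ = b := by ring
    have e2 : a + ρ - ρ = a := by ring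
    have e3 : b - ρ + (a + ρ) = a + b := by ring
    refine endgame_neg t s ρ (-σ) (b - ρ) (a + ρ) (fun u v => η v u) ht0 ht1 hs0 hs1 hρ
      (by linarith) (by linarith) (by linarith) ?_ h0r h0l h1r h1l hb' ha'
      (by linarith) (by linarith) (by linarith) ?_ ?_
    · intro u hu v hv
      have := hη v hv u hu
      nlinarith
    · intro x x' h1 h2 h3 h4 h5 h6
      rw [e1] at h4
      rw [e2] at h6
      rw [e1, e2, e3]
      obtain ⟨k1, k2⟩ := hII x' x h2 h1 h6 h5 h4 h3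
      constructor <;> linarith
    · intro x x' h1 h2 h3 h4 h5 h6
      rw [e1] at h4
      rw [e2] at h6
      rw [e1, e2, e3]
      obtain ⟨k1, -⟩ := hI x' x h2 h1 h6 h5 h4 h3
      linarith

end Crest.Agent.R74
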