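import Mathlib

set_option autoImplicit false

namespace Crest.Agent.R74

open Set Metric

/-- The profile `x ↦ ‖u + x • h‖` as a continuous function on `[-M, M]`. -/
noncomputable def prof {X : Type*} [NormedAddCommGroup X] [NormedSpace ℝ X] (h : X) (M : ℝ)
    (u : X) : C(Icc (-M) M, ℝ) := ⟨fun x => ‖u + (x : ℝ) • h‖, by fun_prop⟩

theorem prof_apply {X : Type*} [NormedAddCommGroup X] [NormedSpace ℝ X] (h : X) (M : ℝ)
    (u : X) (x : Icc (-M) M) : prof h M u x = ‖u + (x : ℝ) • h‖ := rfl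

theorem dist_prof_le {X : Type*} [NormedAddCommGroup X] [NormedSpace ℝ X] (h : X) (M : ℝ)
    (u v : X) : dist (prof h M u) (prof h M v) ≤ dist u v := by
  refine (ContinuousMap.dist_le dist_nonneg).2 fun x => ?_
  rw [prof_apply, prof_apply, Real.dist_eq, dist_eq_norm]
  have := abs_norm_sub_norm_le (u + (x : ℝ) • h) (v + (x : ℝ) • h)
  simpa using this

theorem continuous_prof {X : Type*} [NormedAddCommGroup X] [NormedSpace ℝ X] (h : X) (M : ℝ) :
    Continuous (prof h M) :=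
  (LipschitzWith.of_dist_le_mul (K := 1) fun u v => by
    simpa using dist_prof_le h M u v).continuous

theorem abs_le_dist_prof {X : Type*} [NormedAddCommGroup X] [NormedSpace ℝ X] (h : X) (M : ℝ)
    (u v : X) (x : ℝ) (hx : |x| ≤ M) :
    |‖u + x • h‖ - ‖v + x • h‖| ≤ dist (prof h M u) (prof h M v) := by
  have := ContinuousMap.dist_apply_le_dist (f := prof h M u) (g := prof h M v) ⟨x, abs_le.1 hx⟩
  rwa [prof_apply, prof_apply, Real.dist_eq] at this

theorem net {X : Type*} [NormedAddCommGroup X] [NormedSpace ℝ X] (h : X) (hh : ‖h‖ = 1)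
    {M e : ℝ} (hM : 0 < M) (he : 0 < e) : ∃ N : ℕ, ∀ c : Fin N → X, (∀ i, ‖c i‖ = 1) →
      ∃ i j, i ≠ j ∧ ∀ x : ℝ, |x| ≤ M → |‖c i + x • h‖ - ‖c j + x • h‖| ≤ e := by
  classical
  obtain ⟨t, -, htf, hcov⟩ := finite_cover_balls_of_compact (isCompact_Icc (a := -M) (b := M))
    (e := e / 4) (by positivity)
  have := htf.fintype
  obtain ⟨R, hR⟩ := htf.isBounded.subset_closedBall (0:ℝ)
  obtain ⟨K, hK⟩ := exists_nat_gt ((1 + R) / (e / 4))
  have he4 : 0 < e / 4 := by positivity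
  refine ⟨Fintype.card (t → Fin (K + 1)) + 1, fun c hc => ?_⟩
  have hlt : ∀ i (g : t), ⌊‖c i + (g : ℝ) • h‖ / (e / 4)⌋₊ < K + 1 := by
    intro i g
    have h1 : ‖c i + (g : ℝ) • h‖ ≤ 1 + R := by
      have h2 := hR g.2
      rw [mem_closedBall, dist_zero_right] at h2
      calc ‖c i + (g : ℝ) • h‖ ≤ ‖c i‖ + ‖(g : ℝ) • h‖ := norm_add_le _ _
        _ ≤ 1 + R := by rw [hc, norm_smul, hh, mul_one]; linarith
    have h3 : ‖c i + (g : ℝ) • h‖ / (e / 4) < K :=
      (div_le_div_of_nonneg_right h1 he4.le).trans_lt hK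
    have := (Nat.floor_lt (by positivity)).2 h3
    omega
  obtain ⟨i, j, hij, hEq⟩ := Fintype.exists_ne_map_eq_of_card_lt
    (fun i (g : t) => (⟨_, hlt i g⟩ : Fin (K + 1))) (by simp)
  refine ⟨i, j, hij, fun x hx => ?_⟩
  have hx' := hcov (abs_le.1 hx)
  simp only [mem_iUnion] at hx'
  obtain ⟨g, hg, hxg⟩ := hx'
  have h1 : ⌊‖c i + g • h‖ / (e / 4)⌋₊ = ⌊‖c j + g • h‖ / (e / 4)⌋₊ := by
    have := congrFun hEq ⟨g, hg⟩
    simpa using this
  have a1 := Nat.floor_le (a := ‖c i + g • h‖ / (e / 4)) (by positivity)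
  have a2 := Nat.lt_floor_add_one (‖c i + g • h‖ / (e / 4))
  have b1 := Nat.floor_le (a := ‖c j + g • h‖ / (e / 4)) (by positivity)
  have b2 := Nat.lt_floor_add_one (‖c j + g • h‖ / (e / 4))
  rw [h1] at a1 a2
  have k1 : ‖c i + g • h‖ / (e / 4) < ‖c j + g • h‖ / (e / 4) + 1 := by linarith
  have k2 : ‖c j + g • h‖ / (e / 4) < ‖c i + g • h‖ / (e / 4) + 1 := by linarith
  rw [div_add_one he4.ne', div_lt_div_iff_of_pos_right he4] at k1 k2
  have l : ∀ u : X, |‖u + x • h‖ - ‖u + g • h‖| ≤ e / 4 := by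
    intro u
    refine (abs_norm_sub_norm_le _ _).trans ?_
    rw [add_sub_add_left_eq_sub, ← sub_smul, norm_smul, hh, mul_one]
    rw [mem_ball, dist_eq_norm] at hxg
    exact hxg.le
  have l1 := abs_le.1 (l (c i))
  have l2 := abs_le.1 (l (c j))
  rw [abs_le]
  constructor <;> linarith [l1.1, l1.2, l2.1, l2.2]

theorem net_prof {X : Type*} [NormedAddCommGroup X] [NormedSpace ℝ X] (h : X) (hh : ‖h‖ = 1)
    {M e : ℝ} (hM : 0 < M) (he : 0 < e) : ∃ N : ℕ, ∀ c : Fin N → X, (∀ i, ‖c i‖ = 1) →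
      ∃ i j, i ≠ j ∧ dist (prof h M (c i)) (prof h M (c j)) ≤ e := by
  obtain ⟨N, hN⟩ := net h hh hM he
  refine ⟨N, fun c hc => ?_⟩
  obtain ⟨i, j, hij, H⟩ := hN c hc
  refine ⟨i, j, hij, (ContinuousMap.dist_le he.le).2 fun x => ?_⟩
  rw [prof_apply, prof_apply, Real.dist_eq]
  exact H x (abs_le.2 x.2)

end Crest.Agent.R74
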