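import Crest.Agent.R74.Defs
import Crest.Agent.R74.End

set_option autoImplicit false

open Set

noncomputable section

namespace Crest.Agent.R74

theorem tangent23 {A : ℝ → ℝ} (hA : IsProfile A) {s ρ σ : ℝ} (hs0 : 0 < s) (hs1 : s < 1)
    (hρ : 0 < ρ) (hσ2 : σ ^ 2 ≤ 1)
    (hup : ∀ v ∈ Icc (0:ℝ) 1, A v ≤ A s - ρ + √(ρ ^ 2 + 2 * σ * ρ * (v - s) + (v - s) ^ 2))
    (u : ℝ) : A s + σ * (u - s) ≤ A u := by
  apply le_of_forall_pos_le_add
  intro ε hε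
  obtain ⟨h, rfl⟩ : ∃ h, u = s + h := ⟨u - s, by ring⟩
  obtain ⟨m, hm0, hms, hm1, hmε⟩ : ∃ m : ℝ, 0 < m ∧ m ≤ s ∧ m ≤ 1 - s ∧ m ≤ 2 * ρ * ε :=
    ⟨min (min s (1 - s)) (2 * ρ * ε), lt_min (lt_min hs0 (by linarith)) (by positivity),
      (min_le_left _ _).trans (min_le_left _ _), (min_le_left _ _).trans (min_le_right _ _),
      min_le_right _ _⟩
  have hh : 0 < h ^ 2 + 1 := by positivity
  obtain ⟨θ, hθ0, hθ⟩ : ∃ θ : ℝ, 0 < θ ∧ θ * (h ^ 2 + 1) = m :=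
    ⟨m / (h ^ 2 + 1), by positivity, by field_simp⟩
  have k1 : θ * h ≤ m := by
    rw [← hθ]; exact mul_le_mul_of_nonneg_left (by nlinarith [sq_nonneg (h - 1)]) hθ0.le
  have k2 : -(θ * h) ≤ m := by
    rw [← hθ, ← mul_neg]; exact mul_le_mul_of_nonneg_left (by nlinarith [sq_nonneg (h + 1)]) hθ0.le
  have k3 : θ * h ^ 2 ≤ m := by
    rw [← hθ]; exact mul_le_mul_of_nonneg_left (by linarith) hθ0.le
  have hv : s - θ * h ∈ Icc (0:ℝ) 1 := ⟨by linarith, by linarith⟩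
  have h1 := hup _ hv
  have e1 : s - θ * h - s = -(θ * h) := by ring
  rw [e1] at h1
  obtain ⟨y, hy⟩ : ∃ y, y = ρ ^ 2 + 2 * σ * ρ * -(θ * h) + (-(θ * h)) ^ 2 := ⟨_, rfl⟩
  rw [← hy] at h1
  have hy0 : 0 ≤ y := by
    have : y = (ρ * σ - θ * h) ^ 2 + ρ ^ 2 * (1 - σ ^ 2) := by rw [hy]; ring
    rw [this]
    exact add_nonneg (sq_nonneg _) (mul_nonneg (sq_nonneg _) (by linarith))
  have h2 : 2 * ρ * √y ≤ ρ ^ 2 + y := by
    have := Real.sq_sqrt hy0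
    have h3 := sq_nonneg (ρ - √y)
    have h4 : (ρ - √y) ^ 2 = ρ ^ 2 - 2 * ρ * √y + √y ^ 2 := by ring
    linarith
  have h1θ : 0 < 1 + θ := by linarith
  have hc := hA.convex (s - θ * h) (s + h) (θ / (1 + θ)) (by positivity)
    (by rw [div_le_one h1θ]; linarith)
  have e2 : (1 - θ / (1 + θ)) * (s - θ * h) + θ / (1 + θ) * (s + h) = s := by
    field_simp; ring
  rw [e2] at hc
  have h5 : (1 + θ) * A s ≤ A (s - θ * h) + θ * A (s + h) := by
    have := mul_le_mul_of_nonneg_left hc h1θ.le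
    have e3 : (1 + θ) * ((1 - θ / (1 + θ)) * A (s - θ * h) + θ / (1 + θ) * A (s + h)) =
        A (s - θ * h) + θ * A (s + h) := by field_simp; ring
    linarith
  have h6 : θ * A s ≤ √y - ρ + θ * A (s + h) := by linarith
  have h7 : 2 * ρ * (θ * A s) ≤ 2 * ρ * (√y - ρ + θ * A (s + h)) :=
    mul_le_mul_of_nonneg_left h6 (by positivity)
  have h8 : θ * (θ * h ^ 2) ≤ θ * (2 * ρ * ε) :=
    mul_le_mul_of_nonneg_left (k3.trans hmε) hθ0.le
  have h9 : (2 * ρ * θ) * (A s + σ * (s + h - s)) ≤ (2 * ρ * θ) * (A (s + h) + ε) := by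
    have e4 : (2 * ρ * θ) * (A s + σ * (s + h - s)) = 2 * ρ * (θ * A s) + 2 * σ * ρ * (θ * h) := by
      ring
    have e5 : (2 * ρ * θ) * (A (s + h) + ε) = 2 * ρ * (θ * A (s + h)) + θ * (2 * ρ * ε) := by ring
    have e6 : 2 * ρ * (√y - ρ + θ * A (s + h)) =
        2 * ρ * √y - 2 * ρ ^ 2 + 2 * ρ * (θ * A (s + h)) := by ring
    have e7 : y = ρ ^ 2 - 2 * σ * ρ * (θ * h) + θ * (θ * h ^ 2) := by rw [hy]; ring
    linarith
  exact le_of_mul_le_mul_left h9 (by positivity)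

/-- the weighted link estimate -/
theorem link23 {a b ρ P Q J : ℝ} (hb : 0 < b) (hb' : 0 ≤ b - ρ) (hρ : 0 ≤ ρ) (hd : 0 ≤ a + b)
    (hl : b * P ≤ a * Q) (hJ : b * J ≤ Q) :
    ρ * (a + b) * J ≤ (a + ρ) * Q - (b - ρ) * P := by
  have h1 : (b - ρ) * (b * P) ≤ (b - ρ) * (a * Q) := mul_le_mul_of_nonneg_left hl hb'
  have h2 : ρ * (a + b) * (b * J) ≤ ρ * (a + b) * Q :=
    mul_le_mul_of_nonneg_left hJ (mul_nonneg hρ hd)
  have h3 : b * (ρ * (a + b) * J) ≤ b * ((a + ρ) * Q - (b - ρ) * P) := by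
    have e1 : b * (ρ * (a + b) * J) = ρ * (a + b) * (b * J) := by ring
    have e2 : b * ((a + ρ) * Q - (b - ρ) * P) =
        ρ * (a + b) * Q + ((b - ρ) * (a * Q) - (b - ρ) * (b * P)) := by ring
    linarith
  exact le_of_mul_le_mul_left h3 hb

theorem le_one23 {s b x : ℝ} (hs : s < 1) (hb : 1 - s ≤ b) (hx : 0 ≤ x) (h : s + b * x ≤ 1) :
    |x| ≤ 1 := by
  rw [abs_of_nonneg hx]
  by_contra hc
  push Not at hc
  nlinarith [mul_pos (sub_pos.2 hc) (by linarith : 0 < b)]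

theorem low23 {a b P Q x S : ℝ} (ha : 0 < a) (hb : 0 < b) (hl : b * P ≤ a * Q)
    (hP : a * x + S ≤ P) : b * (x + S / a) ≤ Q := by
  have h1 : b * (a * x + S) ≤ b * P := mul_le_mul_of_nonneg_left hP hb.le
  have h2 : a * (b * (x + S / a)) = b * (a * x + S) := by field_simp
  exact le_of_mul_le_mul_left (by linarith) ha

theorem prof_false23 {η : ℝ → ℝ → ℝ} {s t ρ : ℝ} (H : IsMaxPt η s t ρ) (P : Prof η s t ρ 0) :
    False := by
  have hs0 := H.s_pos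
  have hs1 := H.s_lt
  have ht0 := H.t_pos
  have ht1 := H.t_lt
  have hρ : 0 < ρ := lt_of_le_of_lt (abs_nonneg _) H.gap
  have hsI : s ∈ Icc (0:ℝ) 1 := ⟨hs0.le, hs1.le⟩
  have htI : t ∈ Icc (0:ℝ) 1 := ⟨ht0.le, ht1.le⟩
  obtain ⟨σ, hσ⟩ : ∃ σ, σ * ρ = s - t := ⟨(s - t) / ρ, by field_simp⟩
  obtain ⟨g1, g2⟩ := abs_lt.1 H.gap
  have hσ1 : -1 < σ := by
    by_contra h; push Not at h
    have := mul_le_mul_of_nonneg_right h hρ.le
    linarith
  have hσ2 : σ < 1 := by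
    by_contra h; push Not at h
    have := mul_le_mul_of_nonneg_right h hρ.le
    linarith
  have hσsq : σ ^ 2 ≤ 1 := by nlinarith
  obtain ⟨a, hae⟩ : ∃ a, a = P.Ap s := ⟨_, rfl⟩
  obtain ⟨b, hbe⟩ : ∃ b, b = P.Aq s := ⟨_, rfl⟩
  have ha'e : P.Bp t = a + ρ := by
    have h1 := P.bdp s hsI t htI
    have h2 := P.extp
    rw [H.val] at h1; linarith
  have hb'e : P.Bq t = b - ρ := by
    have h1 := P.bdq s hsI t htI
    have h2 := P.extq
    rw [H.val] at h1; linarith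
  have ha : 1 - s ≤ a := hae ▸ P.hAp.lower s hs0.le
  have hb : 1 - s ≤ b := hbe ▸ P.hAq.lower s hs0.le
  have ha' : 1 - t ≤ a + ρ := ha'e ▸ P.hBp.lower t ht0.le
  have hb' : 1 - t ≤ b - ρ := hb'e ▸ P.hBq.lower t ht0.le
  have ha0 : 0 < a := by linarith
  have hb0 : 0 < b := by linarith
  have ha'0 : 0 < a + ρ := by linarith
  have hb'0 : 0 < b - ρ := by linarith
  have tq : ∀ u, b + σ * (u - s) ≤ P.Aq u := by
    intro u
    rw [hbe]
    refine tangent23 P.hAq hs0 hs1 hρ hσsq (fun v hv => ?_) u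
    have h1 := (P.bdq v hv t htI).trans (H.upper v hv t htI)
    have e : ρ ^ 2 - (s - t) ^ 2 + (v - t) ^ 2 = ρ ^ 2 + 2 * σ * ρ * (v - s) + (v - s) ^ 2 := by
      rw [mul_assoc 2 σ ρ, hσ]; ring
    rw [e] at h1
    linarith
  have tp : ∀ u, a + ρ + -σ * (u - t) ≤ P.Bp u := by
    intro u
    rw [← ha'e]
    refine tangent23 P.hBp ht0 ht1 hρ (by rw [neg_sq]; exact hσsq) (fun v hv => ?_) u
    have h1 := (P.bdp s hsI v hv).trans (H.upper s hsI v hv)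
    have e : ρ ^ 2 - (s - t) ^ 2 + (s - v) ^ 2 = ρ ^ 2 + 2 * -σ * ρ * (v - t) + (v - t) ^ 2 := by
      rw [mul_assoc 2 (-σ) ρ, neg_mul, hσ]; ring
    rw [e] at h1
    linarith
  have lX : ∀ x, |x| ≤ 1 → b * P.Ap (s - a * x) ≤ a * P.Aq (s + b * x) := by
    intro x hx
    have := P.linkX x hx
    rw [← hae, ← hbe, add_zero] at this
    exact this
  have lY : ∀ x, |x| ≤ 1 →
      (a + ρ) * P.Bq (t + (b - ρ) * x) ≤ (b - ρ) * P.Bp (t - (a + ρ) * x) := by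
    intro x hx
    have := P.linkY x hx
    rw [ha'e, hb'e, add_zero] at this
    exact this
  have hc2 : 0 ≤ ρ ^ 2 - (s - t) ^ 2 := by
    rw [← hσ]
    have : ρ ^ 2 - (σ * ρ) ^ 2 = ρ ^ 2 * (1 - σ ^ 2) := by ring
    rw [this]; exact mul_nonneg (sq_nonneg _) (by linarith)
  refine endgame s t ρ σ a b (fun u v => max (η u v) 0) hs0 hs1 ht0 ht1 hρ hσ hσ1 hσ2
    ?_ ?_ ?_ ?_ ?_ ha hb ha' hb' ?_ ?_ ?_ ?_
  · intro u hu v hv
    have h1 : max (η u v) 0 ≤ √(ρ ^ 2 - (s - t) ^ 2 + (u - v) ^ 2) :=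
      max_le (H.upper u hu v hv) (Real.sqrt_nonneg _)
    have h2 := pow_le_pow_left₀ (le_max_right _ _) h1 2
    rw [Real.sq_sqrt (add_nonneg hc2 (sq_nonneg _))] at h2
    linarith
  · intro v hv
    have := H.bdry 0 ⟨le_rfl, zero_le_one⟩ v hv (Or.inl rfl)
    rw [zero_sub, abs_neg, abs_of_nonneg hv.1] at this
    exact max_le this hv.1
  · intro u hu
    have := H.bdry u hu 0 ⟨le_rfl, zero_le_one⟩ (Or.inr (Or.inr (Or.inl rfl)))
    rw [sub_zero, abs_of_nonneg hu.1] at this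
    exact max_le this hu.1
  · intro v hv
    have := H.bdry 1 ⟨zero_le_one, le_rfl⟩ v hv (Or.inr (Or.inl rfl))
    rw [abs_of_nonneg (sub_nonneg.2 hv.2)] at this
    exact max_le this (sub_nonneg.2 hv.2)
  · intro u hu
    have := H.bdry u hu 1 ⟨zero_le_one, le_rfl⟩ (Or.inr (Or.inr (Or.inr rfl)))
    rw [abs_sub_comm, abs_of_nonneg (sub_nonneg.2 hu.2)] at this
    exact max_le this (sub_nonneg.2 hu.2)
  · have := tp 0
    rw [P.hBp.zero] at this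
    linarith
  · have := tq 0
    rw [P.hAq.zero] at this
    linarith
  · intro x x' hx hx' h3 h4 h5 h6
    have m1 : s - a * x ∈ Icc (0:ℝ) 1 := ⟨h3, by linarith [mul_nonneg ha0.le hx]⟩
    have m2 : t - (a + ρ) * x' ∈ Icc (0:ℝ) 1 := ⟨h4, by linarith [mul_nonneg ha'0.le hx']⟩
    have m3 : s + b * x ∈ Icc (0:ℝ) 1 := ⟨by linarith [mul_nonneg hb0.le hx], h5⟩
    have m4 : t + (b - ρ) * x' ∈ Icc (0:ℝ) 1 := ⟨by linarith [mul_nonneg hb'0.le hx'], h6⟩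
    have b1 := mul_le_mul_of_nonneg_left
      ((P.bdp _ m1 _ m2).trans (le_max_left _ 0)) hb'0.le
    have b2 := mul_le_mul_of_nonneg_left
      ((P.bdq _ m3 _ m4).trans (le_max_left _ 0)) ha'0.le
    have l1 := lX x (le_one23 hs1 hb hx h5)
    have l2 := lY x' (le_one23 ht1 hb' hx' h6)
    rw [mul_sub] at b1 b2
    have j1 : b * (1 + σ * x) ≤ P.Aq (s + b * x) := by
      have := tq (s + b * x)
      have e : b * (1 + σ * x) = b + σ * (s + b * x - s) := by ring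
      linarith
    have j2 : b * (x + (1 - s) / a) ≤ P.Aq (s + b * x) :=
      low23 ha0 hb0 l1 (by linarith [P.hAp.lower _ h3])
    have c1 := link23 hb0 hb'0.le hρ.le (by linarith) l1 j1
    have c2 := link23 hb0 hb'0.le hρ.le (by linarith) l1 j2
    constructor <;> (beta_reduce; linarith)
  · intro x x' hx hx' h3 h4 h5 h6
    have m1 : s + a * x ∈ Icc (0:ℝ) 1 := ⟨by linarith [mul_nonneg ha0.le hx], h3⟩
    have m2 : t + (a + ρ) * x' ∈ Icc (0:ℝ) 1 := ⟨by linarith [mul_nonneg ha'0.le hx'], h4⟩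
    have m3 : s - b * x ∈ Icc (0:ℝ) 1 := ⟨h5, by linarith [mul_nonneg hb0.le hx]⟩
    have m4 : t - (b - ρ) * x' ∈ Icc (0:ℝ) 1 := ⟨h6, by linarith [mul_nonneg hb'0.le hx']⟩
    have b1 := mul_le_mul_of_nonneg_left
      ((P.bdp _ m1 _ m2).trans (le_max_left _ 0)) hb0.le
    have b2 := mul_le_mul_of_nonneg_left
      ((P.bdq _ m3 _ m4).trans (le_max_left _ 0)) ha0.le
    have l1 := lX (-x) (by rw [abs_neg]; exact le_one23 hs1 ha hx h3)
    have l2 := lY (-x') (by rw [abs_neg]; exact le_one23 ht1 ha' hx' h4)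
    rw [mul_neg, mul_neg, sub_neg_eq_add, ← sub_eq_add_neg] at l1 l2
    rw [mul_sub] at b1 b2
    have j1 : (a + ρ) * (1 - σ * x') ≤ P.Bp (t + (a + ρ) * x') := by
      have := tp (t + (a + ρ) * x')
      have e : (a + ρ) * (1 - σ * x') = a + ρ + -σ * (t + (a + ρ) * x' - t) := by ring
      linarith
    have j2 : (a + ρ) * (x' + (1 - t) / (b - ρ)) ≤ P.Bp (t + (a + ρ) * x') :=
      low23 hb'0 ha'0 l2 (by linarith [P.hBq.lower _ h6])
    have c1 := link23 ha'0 (by linarith) hρ.le (by linarith) l2 j1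
    have c2 := link23 ha'0 (by linarith) hρ.le (by linarith) l2 j2
    have e1 : b - ρ + ρ = b := by ring
    have e2 : a + ρ - ρ = a := by ring
    have e3 : b - ρ + (a + ρ) = a + b := by ring
    rw [e1, e2, e3] at c1 c2
    constructor <;> (beta_reduce; linarith)

end Crest.Agent.R74
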